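import Vale.Agent.P092.H720.ThC
import Vale.Agent.P092.VR.Defs

/-!
P092 (helper565), project VR: the action of a place `FacV` is faithful.
-/

set_option linter.all false

open scoped InnerProductSpace Topology ENNReal NNReal
open Filter ContinuousLinearMap MeasureTheory

namespace Vale.Agent.P092.VR.H565

open Vale.Agent.P092.H242.ThC
open Vale.Agent.P092.VR (FacV)

/-- an open subgroup which is not compact has infinite Haar measure -/
theorem measure_open_top {H : Type} [Group H] [TopologicalSpace H] [IsTopologicalGroup H]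
    [LocallyCompactSpace H] [T2Space H] [SecondCountableTopology H] [MeasurableSpace H]
    [BorelSpace H] (μ : Measure H) [μ.IsHaarMeasure] {N : Subgroup H} (ho : IsOpen (N : Set H))
    (hc : ¬ IsCompact (N : Set H)) : μ (N : Set H) = ∞ := by
  have hemb : Topology.IsOpenEmbedding (N.subtype : N → H) := ho.isOpenEmbedding_subtypeVal
  haveI : LocallyCompactSpace N := ho.isOpenEmbedding_subtypeVal.locallyCompactSpace
  haveI : NoncompactSpace N := by
    rw [← not_compactSpace_iff]
    intro h
    exact hc (isCompact_iff_compactSpace.2 h)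
  haveI : (μ.comap N.subtype).IsHaarMeasure := Measure.IsHaarMeasure.comap (mH := inferInstance) μ hemb
  have h1 := measure_univ_of_isMulLeftInvariant (μ.comap N.subtype)
  rw [Measure.comap_apply _ hemb.injective (fun s hs => hemb.measurableEmbedding.measurableSet_image.2 hs)
    _ MeasurableSet.univ] at h1
  rw [← h1]
  congr 1
  simp

section abs

variable {A L : Type*} [NonUnitalRing A] [StarRing A] [Module ℂ A] [SMulCommClass ℂ A A]
  [IsScalarTower ℂ A A]
  [NormedAddCommGroup L] [InnerProductSpace ℂ L] [CompleteSpace L] {j : A →ₗ[ℂ] L}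

variable {H : Type} [Group H] [TopologicalSpace H] [IsTopologicalGroup H]
  [LocallyCompactSpace H] [T2Space H] [SecondCountableTopology H]
  [MeasurableSpace H] [BorelSpace H] {Y : Type*} [Group Y] [TopologicalSpace Y]
  [IsTopologicalGroup Y] [MeasurableSpace Y] [BorelSpace Y] [SecondCountableTopology Y]
  {α : H → A → A} {U : H →* (L →L[ℂ] L)} {μ : Measure H} [μ.IsHaarMeasure]
  {r : Y → A → A} {R : Y →* (L →L[ℂ] L)} {ν : Measure Y}

/-- The action of a place is faithful. -/
theorem faith_of (hF : FacV H) (P : Pk j α U μ r R ν) (hne : ∃ a, j a ≠ 0) :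
    ∀ h : H, (∀ a, j (α h a) = j a) → h = 1 := by
  have hker : ∀ h : H, (∀ a, j (α h a) = j a) ↔ h ∈ U.ker := by
    intro h
    rw [MonoidHom.mem_ker]
    constructor
    · intro h1
      refine ContinuousLinearMap.coeFn_injective ?_
      refine P.ha.dense.equalizer (U h).continuous (1 : L →L[ℂ] L).continuous ?_
      funext a
      simp only [Function.comp_apply, ContinuousLinearMap.one_apply, P.actH.coe, h1]
    · intro h1 a
      rw [← P.actH.coe, h1, ContinuousLinearMap.one_apply]
  intro h hh
  by_contra hne1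
  have hbot : U.ker ≠ ⊥ := fun hb => hne1 (by
    have h2 := (hker h).1 hh
    rw [hb, Subgroup.mem_bot] at h2
    exact h2)
  obtain ⟨ho, hc⟩ := hF.big U.ker (MonoidHom.normal_ker U) hbot
  obtain ⟨a, ha⟩ := hne
  refine ha (eq_zero_of_orth P.ha P.actH P.itgH fun b x => ?_)
  have h2 : ∀ t ∈ (U.ker : Set H), j (α t b * x) = j (b * x) := by
    intro t ht
    have h3 : ∀ a, j (α t a) = j a := (hker t).2 ht
    obtain ⟨C, _, hC⟩ := P.ha.bddR x
    have h4 : ‖j ((α t b - b) * x)‖ ≤ 0 := by
      refine (hC _).trans (le_of_eq ?_)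
      rw [map_sub, h3, sub_self, norm_zero, mul_zero]
    have h5 := norm_le_zero_iff.1 h4
    rw [sub_mul, map_sub, sub_eq_zero] at h5
    exact h5
  have h3 : IntegrableOn (fun _ : H => ‖j (b * x)‖ ^ 2) (U.ker : Set H) μ := by
    refine (P.itgH.int b x).integrableOn.congr_fun (fun t ht => ?_) ho.measurableSet
    simp only [h2 t ht]
  have h4 : ‖j (b * x)‖ ^ 2 = 0 := by
    by_contra h5
    have h6 := (integrableOn_const_iff (μ := μ) (C := ‖j (b * x)‖ ^ 2)).1 h3
    rcases h6 with h6 | h6
    · exact h5 (enorm_eq_zero.1 h6)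
    · rw [measure_open_top μ ho hc] at h6
      exact absurd h6 (lt_irrefl _)
  rw [sq_eq_zero_iff, norm_eq_zero] at h4
  rw [h4, inner_zero_left]

end abs

end Vale.Agent.P092.VR.H565
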