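import Vale.Agent.P092.H565.Fun

/-!
P092 (helper565), project VR, block [V-C3]: families of positive functionals on `C₀(H)` which are
covariant under a lattice are carried by the point `1`, when every finite measure on `H` which is
invariant under conjugation is carried by `1`.
-/

set_option linter.all false

open MeasureTheory Filter Topology
open scoped ZeroAtInfty InnerProductSpace ENNReal CompactlySupported

namespace Vale.Agent.P092.VR.H565

open Vale.Agent.P092.H565 Vale.Agent.P092.H978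
open Vale.Agent.P092.H821 (cjF_cjF cjF_one norm_cjF_le continuous_cjF norm_le_of apply_le_norm
  exists_bump mem_ideal)

section riesz

variable {H : Type*} [TopologicalSpace H]

/-- a real function with compact support as an element of `C₀` -/
noncomputable def toC0 (φ : C_c(H, ℝ)) : C₀(H, ℂ) where
  toFun x := (φ x : ℂ)
  continuous_toFun := Complex.continuous_ofReal.comp φ.continuous
  zero_at_infty' := by
    have h1 : Tendsto (fun x => φ x) (cocompact H) (𝓝 0) :=
      φ.hasCompactSupport.is_zero_at_infty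
    have h2 := (Complex.continuous_ofReal.tendsto 0).comp h1
    simpa [Function.comp_def] using h2

theorem toC0_apply (φ : C_c(H, ℝ)) (x : H) : toC0 φ x = (φ x : ℂ) := rfl

/-- the square root of a nonnegative function -/
noncomputable def sqr (φ : C_c(H, ℝ)) : C_c(H, ℝ) where
  toFun x := Real.sqrt (φ x)
  continuous_toFun := Real.continuous_sqrt.comp φ.continuous
  hasCompactSupport' := φ.hasCompactSupport.comp_left Real.sqrt_zero

theorem toC0_sqr {φ : C_c(H, ℝ)} (h : 0 ≤ φ) : star (toC0 (sqr φ)) * toC0 (sqr φ) = toC0 φ := by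
  ext x
  have h1 : (0 : ℝ) ≤ φ x := h x
  simp only [ZeroAtInftyContinuousMap.mul_apply, ZeroAtInftyContinuousMap.star_apply, toC0_apply]
  have e : (sqr φ) x = Real.sqrt (φ x) := rfl
  rw [e, RCLike.star_def, Complex.conj_ofReal, ← Complex.ofReal_mul, Real.mul_self_sqrt h1]

variable {M : C₀(H, ℂ) → ℝ} {C : ℝ}

/-- the positive functional -/
noncomputable def pf (hadd : ∀ f g, M (f + g) = M f + M g) (hsm : ∀ (r : ℝ) f, M ((r : ℂ) • f) = r * M f)
    (hpos : ∀ f, 0 ≤ M (star f * f)) : C_c(H, ℝ) →ₚ[ℝ] ℝ :=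
  PositiveLinearMap.mk₀
    { toFun := fun φ => M (toC0 φ)
      map_add' := fun φ ψ => by
        rw [← hadd]
        congr 1
        ext x
        simp [toC0_apply]
      map_smul' := fun r φ => by
        rw [RingHom.id_apply, smul_eq_mul, ← hsm]
        congr 1
        ext x
        simp [toC0_apply] }
    (fun φ hφ => by
      have h1 := hpos (toC0 (sqr φ))
      rw [toC0_sqr hφ] at h1
      exact h1)

theorem pf_apply (hadd : ∀ f g, M (f + g) = M f + M g) (hsm : ∀ (r : ℝ) f, M ((r : ℂ) • f) = r * M f)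
    (hpos : ∀ f, 0 ≤ M (star f * f)) (φ : C_c(H, ℝ)) : pf hadd hsm hpos φ = M (toC0 φ) := rfl

variable [T2Space H] [LocallyCompactSpace H] [MeasurableSpace H] [BorelSpace H]

/-- the measure is finite -/
theorem finite_rm (hadd : ∀ f g, M (f + g) = M f + M g) (hsm : ∀ (r : ℝ) f, M ((r : ℂ) • f) = r * M f)
    (hpos : ∀ f, 0 ≤ M (star f * f)) (hC0 : 0 ≤ C) (hb : ∀ g, |M g| ≤ C * ‖g‖) :
    IsFiniteMeasure (RealRMK.rieszMeasure (pf hadd hsm hpos)) := by
  constructor
  refine lt_of_le_of_lt ?_ (ENNReal.ofReal_lt_top (r := C))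
  rw [isOpen_univ.measure_eq_iSup_isCompact]
  refine iSup_le fun K => iSup_le fun _ => iSup_le fun hK => ?_
  obtain ⟨f, hf1, hf2, -, hf3⟩ := exists_continuousMap_one_of_isCompact_subset_isOpen hK isOpen_univ
    (Set.subset_univ K)
  let φ : C_c(H, ℝ) := ⟨f, hf2⟩
  refine (RealRMK.rieszMeasure_le_of_eq_one (pf hadd hsm hpos) (f := φ) (fun x => (hf3 x).1) hK
    (fun x hx => hf1 hx)).trans (ENNReal.ofReal_le_ofReal ?_)
  rw [pf_apply]
  refine (le_abs_self _).trans ((hb _).trans ?_)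
  refine mul_le_of_le_one_right hC0 (norm_le_of zero_le_one fun x => ?_)
  have h4 : (0 : ℝ) ≤ φ x := (hf3 x).1
  rw [toC0_apply, Complex.norm_real, Real.norm_of_nonneg h4]
  exact (hf3 x).2

variable [Group H] [IsTopologicalGroup H]

/-- the measure is invariant under conjugation -/
theorem inv_rm (hadd : ∀ f g, M (f + g) = M f + M g) (hsm : ∀ (r : ℝ) f, M ((r : ℂ) • f) = r * M f)
    (hpos : ∀ f, 0 ≤ M (star f * f)) (hinv : ∀ s g, M (cjF s g) = M g) (s : H) :
    (RealRMK.rieszMeasure (pf hadd hsm hpos)).map (fun x => s * x * s⁻¹) =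
      RealRMK.rieszMeasure (pf hadd hsm hpos) := by
  set e : H ≃ₜ H := (Homeomorph.mulLeft s).trans (Homeomorph.mulRight s⁻¹) with he
  have hee : (fun x => s * x * s⁻¹) = e := rfl
  rw [hee]
  haveI : ((RealRMK.rieszMeasure (pf hadd hsm hpos)).map e).Regular := Measure.Regular.map e
  refine Measure.ext_of_integral_eq_on_compactlySupported fun φ => ?_
  have hφ : Continuous (fun x => φ x) := φ.continuous
  rw [integral_map e.continuous.aemeasurable hφ.aestronglyMeasurable]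
  let ψ : C_c(H, ℝ) :=
    { toFun := fun x => φ (e x)
      continuous_toFun := φ.continuous.comp e.continuous
      hasCompactSupport' := φ.hasCompactSupport.comp_homeomorph e }
  have h1 : ∫ x, φ (e x) ∂(RealRMK.rieszMeasure (pf hadd hsm hpos)) =
      ∫ x, ψ x ∂(RealRMK.rieszMeasure (pf hadd hsm hpos)) := rfl
  rw [h1, RealRMK.integral_rieszMeasure, RealRMK.integral_rieszMeasure, pf_apply, pf_apply,
    ← hinv s⁻¹ (toC0 φ)]
  congr 1
  ext x
  rw [cjF_apply, toC0_apply, toC0_apply, inv_inv]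
  rfl

/-- **a conjugation invariant positive functional is carried by `1`** -/
theorem null_rm [SecondCountableTopology H] (hadd : ∀ f g, M (f + g) = M f + M g)
    (hsm : ∀ (r : ℝ) f, M ((r : ℂ) • f) = r * M f) (hpos : ∀ f, 0 ≤ M (star f * f))
    (hinv : ∀ s g, M (cjF s g) = M g) (hC0 : 0 ≤ C) (hb : ∀ g, |M g| ≤ C * ‖g‖)
    (hnull : ∀ (ν : Measure H) [IsFiniteMeasure ν],
      (∀ g, ν.map (fun x => g * x * g⁻¹) = ν) → ν {1}ᶜ = 0)
    {W : Set H} {K : Set H} (hK : IsCompact K) (hW : W ⊆ K) (h1 : (1 : H) ∉ W) {f : C₀(H, ℂ)}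
    (hf : ∀ t, t ∉ W → f t = 0) : M (star f * f) = 0 := by
  haveI := finite_rm hadd hsm hpos hC0 hb
  have hn := hnull (RealRMK.rieszMeasure (pf hadd hsm hpos)) (inv_rm hadd hsm hpos hinv)
  let φ : C_c(H, ℝ) :=
    { toFun := fun x => ‖f x‖ ^ 2
      continuous_toFun := ((map_continuous f).norm).pow 2
      hasCompactSupport' := HasCompactSupport.intro hK fun x hx => by
        rw [hf x (fun h => hx (hW h))]; simp }
  have e : toC0 φ = star f * f := by
    ext x
    rw [toC0_apply, ZeroAtInftyContinuousMap.mul_apply, ZeroAtInftyContinuousMap.star_apply]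
    have e2 : (φ x : ℝ) = ‖f x‖ ^ 2 := rfl
    rw [e2, RCLike.star_def, Complex.conj_mul']
    push_cast
    rfl
  have h2 := RealRMK.integral_rieszMeasure (pf hadd hsm hpos) φ
  rw [pf_apply, e] at h2
  rw [← h2]
  refine integral_eq_zero_of_ae ?_
  have h3 : ∀ᵐ x ∂(RealRMK.rieszMeasure (pf hadd hsm hpos)), x = 1 := by
    rw [ae_iff]
    exact hn
  filter_upwards [h3] with x hx
  have e3 : (φ x : ℝ) = ‖f x‖ ^ 2 := rfl
  rw [e3, hx, hf 1 h1]
  simp

end riesz

section kill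

variable {Γ H H' E : Type} [Group Γ] [Group H] [TopologicalSpace H] [IsTopologicalGroup H]
  [T2Space H] [LocallyCompactSpace H] [SecondCountableTopology H] [MeasurableSpace H]
  [BorelSpace H] [Group H'] [TopologicalSpace H']
  [Group E] [TopologicalSpace E] [IsTopologicalGroup E] [MeasurableSpace E] [BorelSpace E]
  {κ : Γ → H} {κ' : Γ → H'} {q : Γ →* E} {π₁ : E →* H} {π₂ : E →* H'} {m : Measure E}
  {Λ : H' → (C₀(H, ℂ) →L[ℂ] ℂ)} {C : ℝ}

/-- functions supported in a small set are killed -/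
theorem kill_small (hm : PA.Lat q m) (hκ : ∀ g, κ g = π₁ (q g)) (hκ' : ∀ g, κ' g = π₂ (q g))
    (c1 : Continuous π₁) (c2 : Continuous π₂) (hsec : ∀ k : H, ∃ e : E, π₁ e = k ∧ π₂ e = 1)
    (hC0 : 0 ≤ C) (hb : ∀ h g, ‖Λ h g‖ ≤ C * ‖g‖) (hpos : ∀ h, PosF (Λ h))
    (hc : ∀ g, Continuous fun h => Λ h g)
    (hcov : ∀ v h g, Λ (κ' v * h) (cjF (κ v) g) = Λ h g)
    (hnull : ∀ (ν : Measure H) [IsFiniteMeasure ν],
      (∀ g, ν.map (fun x => g * x * g⁻¹) = ν) → ν {1}ᶜ = 0)
    {W K : Set H} (hK : IsCompact K) (hW : W ⊆ K) (h1W : (1 : H) ∉ W) {f : C₀(H, ℂ)}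
    (hf : ∀ t, t ∉ W → f t = 0) :
    Λ 1 (star f * f) = 0 := by
  have hprob : IsProbabilityMeasure m := hm.prob
  have hcont : ∀ g : C₀(H, ℂ), Continuous (Fa π₁ π₂ Λ g) := continuous_Fa hC0 hb hc c1 c2
  have hint : ∀ g : C₀(H, ℂ), Integrable (Fa π₁ π₂ Λ g) m := fun g =>
    Integrable.of_bound (hcont g).aestronglyMeasurable (C * ‖g‖)
      (Eventually.of_forall fun e => Fa_le hC0 hb g e)
  have hav : ∀ (s : H) (g : C₀(H, ℂ)), ∫ e, Fa π₁ π₂ Λ (cjF s g) e ∂m = ∫ e, Fa π₁ π₂ Λ g e ∂m := by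
    intro s g
    obtain ⟨e₁, he1, he2⟩ := hsec s
    have h1 := hm.inv (fun h => ((Fa π₁ π₂ Λ g h : ℝ) : ℂ))
      (Complex.continuous_ofReal.comp (hcont g))
      ⟨C * ‖g‖, fun h => by rw [Complex.norm_real]; exact Fa_le hC0 hb g h⟩
      (fun v h => by rw [Fa_inv hκ hκ' hcov]) e₁
    simp only [Fa_mul_right he1 he2] at h1
    rw [integral_complex_ofReal, integral_complex_ofReal] at h1
    exact_mod_cast h1
  have hnn : ∀ (f : C₀(H, ℂ)) e, 0 ≤ Fa π₁ π₂ Λ (star f * f) e := fun f e => Fa_nonneg hpos f e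
  have cj_add : ∀ (s : H) (f g : C₀(H, ℂ)), cjF s (f + g) = cjF s f + cjF s g := fun s f g => by
    ext t; rfl
  have cj_smul : ∀ (s : H) (r : ℂ) (f : C₀(H, ℂ)), cjF s (r • f) = r • cjF s f := fun s r f => by
    ext t; rfl
  have hzero : ∫ e, Fa π₁ π₂ Λ (star f * f) e ∂m = 0 := by
    refine null_rm (M := fun g => ∫ e, Fa π₁ π₂ Λ g e ∂m) (C := C) ?_ ?_ ?_ ?_ hC0 ?_ hnull hK hW
      h1W hf
    · intro f g
      rw [← integral_add (hint f) (hint g)]
      refine integral_congr_ae (Eventually.of_forall fun e => ?_)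
      simp only [Fa]
      rw [cj_add, map_add, Complex.add_re]
    · intro r f
      rw [← integral_const_mul]
      refine integral_congr_ae (Eventually.of_forall fun e => ?_)
      simp only [Fa]
      rw [cj_smul, map_smul, smul_eq_mul, Complex.re_ofReal_mul]
    · exact fun f => integral_nonneg (hnn f)
    · exact fun s g => hav s g
    · intro g
      have h1 : ‖∫ e, Fa π₁ π₂ Λ g e ∂m‖ ≤ (C * ‖g‖) * m.real Set.univ :=
        norm_integral_le_of_norm_le_const (Eventually.of_forall fun e => Fa_le hC0 hb g e)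
      rw [Real.norm_eq_abs] at h1
      refine h1.trans (le_of_eq ?_)
      simp
  have h1 := hm.faith (Fa π₁ π₂ Λ (star f * f)) (hcont _)
    ⟨C * ‖star f * f‖, fun h => (le_abs_self _).trans (Fa_le hC0 hb _ h)⟩ (hnn f)
    (fun v h => Fa_inv hκ hκ' hcov _ v h) hzero 1
  unfold Fa at h1
  rw [map_one, map_one, cjF_one] at h1
  exact Complex.ext h1 (hpos 1 f).2

/-- **covariant families of positive functionals are carried by `1`** -/
theorem kill (hm : PA.Lat q m) (hκ : ∀ g, κ g = π₁ (q g)) (hκ' : ∀ g, κ' g = π₂ (q g))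
    (c1 : Continuous π₁) (c2 : Continuous π₂) (hsec : ∀ k : H, ∃ e : E, π₁ e = k ∧ π₂ e = 1)
    (hC0 : 0 ≤ C) (hb : ∀ h g, ‖Λ h g‖ ≤ C * ‖g‖) (hpos : ∀ h, PosF (Λ h))
    (hc : ∀ g, Continuous fun h => Λ h g)
    (hcov : ∀ v h g, Λ (κ' v * h) (cjF (κ v) g) = Λ h g)
    (hnull : ∀ (ν : Measure H) [IsFiniteMeasure ν],
      (∀ g, ν.map (fun x => g * x * g⁻¹) = ν) → ν {1}ᶜ = 0) :
    ∃ k : ℂ, ∀ g : C₀(H, ℂ), Λ 1 g = k * g 1 := by
  have key : ∀ f : C₀(H, ℂ), f 1 = 0 → Λ 1 f = 0 := by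
    intro f hf
    refine (mem_ideal (x₀ := (1 : H))
      (fun f => Λ 1 f = 0 ∧ ∀ g, Λ 1 (g * f) = 0) ?_ ?_ ?_ ?_ ?_ f hf).1
    · exact ⟨map_zero _, fun g => by rw [mul_zero, map_zero]⟩
    · rintro f g ⟨h1, h2⟩ ⟨h3, h4⟩
      exact ⟨by rw [map_add, h1, h3, add_zero], fun u => by
        rw [mul_add, map_add, h2, h4, add_zero]⟩
    · rintro f g ⟨h1, h2⟩
      exact ⟨h2 f, fun u => by rw [← mul_assoc]; exact h2 _⟩
    · intro f h
      have hcl : ∀ L : C₀(H, ℂ) → ℂ, (∀ u v, L (u - v) = L u - L v) → (∃ B : ℝ, 0 ≤ B ∧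
          ∀ u, ‖L u‖ ≤ B * ‖u‖) → (∀ ε : ℝ, 0 < ε → ∃ g, L g = 0 ∧ ‖f - g‖ ≤ ε) → L f = 0 := by
        rintro L hL ⟨B, hB0, hB⟩ h
        refine norm_le_zero_iff.1 (le_of_forall_pos_le_add fun ε hε => ?_)
        obtain ⟨g, hg, hfg⟩ := h (ε / (B + 1)) (by positivity)
        have e : L f = L (f - g) := by rw [hL, hg, sub_zero]
        rw [e, zero_add]
        refine (hB _).trans ?_
        calc B * ‖f - g‖ ≤ (B + 1) * (ε / (B + 1)) :=
              mul_le_mul (by linarith) hfg (norm_nonneg _) (by linarith)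
          _ = ε := by field_simp
      refine ⟨hcl (fun u => Λ 1 u) (fun u v => map_sub _ _ _) ⟨C, hC0, hb 1⟩ fun ε hε => ?_,
        fun w => hcl (fun u => Λ 1 (w * u)) (fun u v => by rw [mul_sub, map_sub])
          ⟨C * ‖w‖, by positivity, fun u => ?_⟩ fun ε hε => ?_⟩
      · obtain ⟨g, hg, hfg⟩ := h ε hε
        exact ⟨g, hg.1, hfg⟩
      · refine (hb 1 _).trans ?_
        rw [mul_assoc]
        exact mul_le_mul_of_nonneg_left (norm_mul_le _ _) hC0
      · obtain ⟨g, hg, hfg⟩ := h ε hε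
        exact ⟨g, hg.2 w, hfg⟩
    · intro z hz
      obtain ⟨K, hK, hKz⟩ := exists_compact_mem_nhds z
      set W : Set H := K \ {1} with hWd
      have hW : W ∈ 𝓝 z := Filter.inter_mem hKz (isOpen_compl_singleton.mem_nhds hz)
      have hWK : W ⊆ K := Set.diff_subset
      have h1W : (1 : H) ∉ W := fun h => h.2 rfl
      obtain ⟨f, hf1, hf0⟩ := exists_bump hW
      have hk : ∀ f : C₀(H, ℂ), (∀ t, t ∉ W → f t = 0) → Λ 1 (star f * f) = 0 := fun f hf =>
        kill_small hm hκ hκ' c1 c2 hsec hC0 hb hpos hc hcov hnull hK hWK h1W hf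
      refine ⟨star f * f, ⟨hk f hf0, fun g => ?_⟩, ?_⟩
      · have e : g * (star f * f) = star f * (g * f) := by
          ext t
          simp only [ZeroAtInftyContinuousMap.mul_apply]
          ring
        rw [e]
        have s1 : ∀ t, t ∉ W → (g * f) t = 0 := fun t ht => by
          rw [ZeroAtInftyContinuousMap.mul_apply, hf0 t ht, mul_zero]
        refine polar (hk f hf0) (hk _ s1) (hk _ fun t ht => ?_) (hk _ fun t ht => ?_)
        · rw [ZeroAtInftyContinuousMap.add_apply, hf0 t ht, s1 t ht, add_zero]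
        · rw [ZeroAtInftyContinuousMap.add_apply, ZeroAtInftyContinuousMap.smul_apply, hf0 t ht,
            s1 t ht, smul_zero, add_zero]
      · rw [ZeroAtInftyContinuousMap.mul_apply, ZeroAtInftyContinuousMap.star_apply, hf1]
        simp
  obtain ⟨u, hu⟩ := exists_unit_at (H := H)
  refine ⟨Λ 1 u, fun g => ?_⟩
  have h1 := key (g - g 1 • u) (by
    change g 1 - g 1 * u 1 = 0
    rw [hu, mul_one, sub_self])
  rw [map_sub, map_smul, sub_eq_zero] at h1
  rw [h1, smul_eq_mul, mul_comm]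

end kill

end Vale.Agent.P092.VR.H565
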