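import Vale.Agent.P092.QT.H565.C3
import Vale.Agent.P092.VR.QDefs
import Vale.Agent.P092.VR.H565.Kill
import Vale.Agent.P092.VR.H565.Faith

/-!
P092 (helper565), project VR, block [V-C3]: different source places, `c3V : VR.Q.C3Stmt`.
-/

set_option linter.all false

open scoped InnerProductSpace Topology ENNReal NNReal ZeroAtInfty
open Filter ContinuousLinearMap MeasureTheory
open Vale.Agent.P092.H160
open Vale.Agent.P092.QT.H156.Sm
open Vale.Agent.P092.QT.H650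

namespace Vale.Agent.P092.VR.H565

open Vale.Agent.P092.H565 Vale.Agent.P092.QT.H565

open Vale.Agent.P092.QT.H715.Q Vale.Agent.P092.QT.H720 Vale.Agent.P092.QT.H796
open Vale.Agent.P092.H100.QPsi
open Vale.Agent.P092.H242.ThC
open Vale.Agent.P092.H978 (ph ph_apply cjF cjF_apply)
open Vale.Agent.P092.H821 (norm_cjF_le)

/-- **[V-C3]** -/
theorem c3V : Vale.Agent.P092.VR.Q.C3Stmt := by
  intro Γ X Y K G G' H H' E _ _ _ _ _ _ _ _ _ _ _ _ _ _ _ _ _ _ _ _ _ _ _ _ _ _ _ _ _ _ _ _ _ _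
    _ _ _ _ _ _ _ _ _ _ _ _ _ V W f ρ f' ρ' ω ω' p κ κ' ι' Q π₁ π₂ μ _ _ μ' _ _ ν _ _ m D hp hκ hκ'
    hι' hG hH c1 c2 hsec e1 e2 hm h1 h2 h3 hne a b ha hb x y
  haveI : μ.IsInvInvariant := Vale.Agent.P092.QT.H448.Gal.invInv_of_right μ
  haveI : ν.IsInvInvariant := Vale.Agent.P092.QT.H448.Gal.invInv_of_right ν
  obtain ⟨c', U, R, hc', P⟩ := exists_pk D hκ hp μ ν h1 h2
  haveI : (c' • ν).IsHaarMeasure := Measure.IsHaarMeasure.nnreal_smul ν hc'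
  have hj : ∃ a, jj D hκ p μ ν a ≠ 0 := by
    obtain ⟨a₀, ha₀, ha₀'⟩ := hne
    refine ⟨⟨a₀, ha₀⟩, fun h => nsq_ne_zero (μ := μ) D.fr.reg ha₀.smo.toFd ha₀' ?_⟩
    have h4 : ‖jj D hκ p μ ν ⟨a₀, ha₀⟩‖ ^ 2 = (nsq ω μ a₀).toReal :=
      Vale.Agent.P092.QT.H156.Sm.norm_toLp_sq ha₀.smo.l2
    rw [h, norm_zero, zero_pow two_ne_zero] at h4
    exact ((ENNReal.toReal_eq_zero_iff _).1 h4.symm).resolve_right (nsq_lt_top ha₀.smo.l2).ne
  have faith := Vale.Agent.P092.VR.H565.faith_of hH P hj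
  have h0 := coef_van P.ha P.actH P.itgH
  have hs : ∀ h, Smo ι' κ' ρ V ω μ' (al κ' V h b) := smo_al D.fr hκ' hb
  choose Λ hΛ hΛb hΛp using fun h => exists_Lam D hκ hp h1 h2 P faith hj h0 (hs h).toFd (hs h).l2
  have hn : ∀ h, (nsq ω μ' (al κ' V h b)).toReal = (nsq ω μ' b).toReal := fun h => by
    rw [← Vale.Agent.P092.QT.H156.Sm.norm_toLp_sq (hs h).l2,
      ← Vale.Agent.P092.QT.H156.Sm.norm_toLp_sq hb.l2]
    have h5 := norm_vec_al (μ := μ') D.fr hκ' hb h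
    unfold vec at h5
    rw [h5]
  have hb' : ∀ h g, ‖Λ h g‖ ≤ (nsq ω μ' b).toReal * ‖g‖ := fun h g => by
    rw [← hn h]; exact hΛb h g
  have hd := dense_ph P h0 hj faith
  have iso1 : ∀ u : TA D hκ p μ ν, Iso μ (u : G → K →L[ℂ] K) (nsq ω μ (u : G → K →L[ℂ] K)) :=
    fun u => Vale.Agent.P092.QT.H100Q.iso_of_F1 μ h1 u.2.smo
  have iso2 : ∀ u : TA D hκ p μ ν, Iso μ (fun y => adjoint ((u : G → K →L[ℂ] K) y))
      (nsq ω μ (u : G → K →L[ℂ] K)) := fun u => Vale.Agent.P092.QT.H100Q.iso_adj μ h1 u.2.smo D.fr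
  have fin : ∀ u : TA D hκ p μ ν, nsq ω μ (u : G → K →L[ℂ] K) ≠ ∞ := fun u =>
    (nsq_lt_top u.2.smo.l2).ne
  have hc : ∀ g, Continuous fun h => Λ h g := by
    refine cont_of_dense hb' hd ?_
    rintro _ ⟨⟨u, v⟩, rfl⟩
    simp only [hΛ]
    exact continuous_q_al D.fr hκ' hb v.2.smo.toFd u.2.smo.toFd (iso2 v) (fin v) (iso1 u) (fin u)
  have hcov : ∀ v h g, Λ (κ' v * h) (cjF (κ v) g) = Λ h g := by
    intro v h
    refine cov_of_dense' (κ v) hd ?_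
    rintro _ ⟨⟨u, w⟩, rfl⟩
    have e3 : cjF (κ v) (ph P h0 u w) = ph P h0 (aT D hκ μ ν (κ v) u) (aT D hκ μ ν (κ v) w) := by
      ext t
      rw [cjF_apply, ph_apply, ph_apply, P.actH.act, ← P.actH.innerj (κ v), P.actH.act]
      congr 3
      group
    simp only
    rw [e3, hΛ, hΛ]
    have k1 : al κ' V (κ' v * h) b = fun u => V v * al κ' V h b u * V v⁻¹ := funext fun u => by
      rw [← al_al D.fr hκ' hb.acont, al_coe D.fr hκ' (hs h).acont]; rfl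
    have k2 : ∀ u : TA D hκ p μ ν, (aT D hκ μ ν (κ v) u : G → K →L[ℂ] K) =
        fun y => V v * (u : G → K →L[ℂ] K) y * V v⁻¹ := fun u => funext fun y =>
      al_coe D.fr hκ u.2.smo.acont v y
    rw [k1, k2, k2]
    exact q_conj D.fr w.2.smo.toFd u.2.smo.toFd (hs h).toFd (hs h).l2 (iso2 w) (fin w) (iso1 u)
      (fin u) v
  obtain ⟨k, hk⟩ := Vale.Agent.P092.VR.H565.kill hm e1 e2 c1 c2 hsec ENNReal.toReal_nonneg hb' hΛp hc hcov
    fun ν _ h => hH.null ν h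
  have hone : al κ' V 1 b = b := funext fun u => al_one D.fr hκ' hb.acont u
  refine comm_of_const D hκ hp h1 hb.toFd hb.l2 (k := k) (fun w u => ?_) ha x y
  have h5 := hk (ph P h0 u w)
  rw [hΛ, hone, ph_apply, P.actH.one, inner_jj] at h5
  exact h5

end Vale.Agent.P092.VR.H565
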